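import Vale.Agent.P207Z.Leh.Ind

/-!
The functional inequality of Blaschke and Santaló (Lehec) in inner product spaces, and its form
for radial functions on the unit sphere.
-/

open MeasureTheory Set Filter Topology Module
open scoped ENNReal

noncomputable section

namespace Vale.Agent.P207Z.Sant

open Vale.Agent.P207Z.Leh

variable {E : Type*} [NormedAddCommGroup E] [InnerProductSpace ℝ E] [FiniteDimensional ℝ E]
  [MeasurableSpace E] [BorelSpace E]

/-- The inequality of Lehec, for a centred function. -/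
theorem lehec_cen (f g : E → ℝ≥0∞) (hf : Measurable f) (hg : Measurable g)
    (hd : ∀ x y, f x * g y ≤ ENNReal.ofReal (Real.exp (-(inner ℝ x y))))
    (hc : ∀ z, ∫⁻ x, f x ≤ ∫⁻ x, f x * ENNReal.ofReal (Real.exp (inner ℝ z x))) :
    (∫⁻ x, f x) * (∫⁻ y, g y) ≤ ENNReal.ofReal ((2 * Real.pi) ^ finrank ℝ E) := by
  set φ : (Fin (finrank ℝ E) → ℝ) → E := fun x =>
    (stdOrthonormalBasis ℝ E).repr.symm (WithLp.toLp 2 x) with hφ
  have hmp : MeasurePreserving φ volume volume :=
    (stdOrthonormalBasis ℝ E).measurePreserving_repr_symm.comp (PiLp.volume_preserving_toLp _)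
  have hin : ∀ x y, inner ℝ (φ x) (φ y) = x ⬝ᵥ y := by
    intro x y
    simp only [hφ]
    rw [LinearIsometryEquiv.inner_map_map, EuclideanSpace.inner_toLp_toLp, star_trivial,
      dotProduct_comm]
  have := sq_all (finrank ℝ E) 1 (fun x => f (φ x)) (fun x => g (φ x)) zero_le_one
    (hf.comp hmp.measurable) (hg.comp hmp.measurable)
    (fun x y => by rw [one_mul, ← hin]; exact hd _ _) (fun z => by
      have hm : Measurable fun x => f x * ENNReal.ofReal (Real.exp (inner ℝ (φ z) x)) :=
        hf.mul (Measurable.ennreal_ofReal (by fun_prop))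
      simp only [← hin]
      rw [hmp.lintegral_comp hf, hmp.lintegral_comp hm]
      exact hc _)
  rwa [hmp.lintegral_comp hf, hmp.lintegral_comp hg, one_mul] at this

theorem lap (f : E → ℝ) (h0 : ∀ x, 0 ≤ f x) (hi : Integrable f) (hj : Integrable fun x => f x • x)
    (b : E) (hb : (∫ x, f x) • b = ∫ x, f x • x) (z : E) :
    ENNReal.ofReal (∫ x, f x) ≤
      ∫⁻ x, ENNReal.ofReal (f x) * ENNReal.ofReal (Real.exp (inner ℝ z (x - b))) := by
  have h1 : Integrable fun x => f x • x - f x • b := hj.sub (hi.smul_const b)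
  have h2 : Integrable fun x => inner ℝ z (f x • x - f x • b) := h1.const_inner z
  have h3 : ∫ x, inner ℝ z (f x • x - f x • b) = 0 := by
    rw [integral_inner h1, integral_sub hj (hi.smul_const b), integral_smul_const, hb, sub_self,
      inner_zero_right]
  have h4 : Integrable fun x => f x + inner ℝ z (f x • x - f x • b) := hi.add h2
  have h5 : ∫ x, f x = ∫ x, (f x + inner ℝ z (f x • x - f x • b)) := by
    rw [integral_add hi h2, h3, add_zero]
  calc ENNReal.ofReal (∫ x, f x)
      ≤ ENNReal.ofReal (∫ x, max (f x + inner ℝ z (f x • x - f x • b)) 0) := by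
        rw [h5]
        exact ENNReal.ofReal_le_ofReal (integral_mono h4 h4.pos_part fun x => le_max_left _ _)
    _ = ∫⁻ x, ENNReal.ofReal (max (f x + inner ℝ z (f x • x - f x • b)) 0) :=
        ofReal_integral_eq_lintegral_ofReal h4.pos_part
          (Eventually.of_forall fun x => le_max_right _ _)
    _ ≤ _ := by
        refine lintegral_mono fun x => ?_
        rw [← ENNReal.ofReal_mul (h0 x)]
        refine ENNReal.ofReal_le_ofReal (max_le ?_ (mul_nonneg (h0 x) (Real.exp_pos _).le))
        rw [← smul_sub, real_inner_smul_right]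
        have := mul_le_mul_of_nonneg_left (Real.add_one_le_exp (inner ℝ z (x - b))) (h0 x)
        linarith

/-- The inequality of Lehec, with the barycentres `a` and `b`. -/
theorem lehec (f g : E → ℝ) (hf : Measurable f) (hg : Measurable g) (f0 : ∀ x, 0 ≤ f x)
    (g0 : ∀ x, 0 ≤ g x) (fi : Integrable f) (gi : Integrable g)
    (fj : Integrable fun x => f x • x) (gj : Integrable fun x => g x • x) (a b : E)
    (ha : (∫ x, f x) • a = ∫ x, f x • x) (hb : (∫ x, g x) • b = ∫ x, g x • x)
    (hd : ∀ x y, f x * g y ≤ Real.exp (-(inner ℝ x y))) :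
    (∫ x, f x) * (∫ x, g x) * Real.exp (inner ℝ a b) ≤ (2 * Real.pi) ^ finrank ℝ E := by
  have e1 : ∫⁻ x, ENNReal.ofReal (f (x + a)) = ENNReal.ofReal (∫ x, f x) := by
    rw [lintegral_add_right_eq_self (fun x => ENNReal.ofReal (f x)) a,
      ofReal_integral_eq_lintegral_ofReal fi (Eventually.of_forall f0)]
  have key := lehec_cen (fun x => ENNReal.ofReal (f (x + a)))
    (fun y => ENNReal.ofReal (g y) * ENNReal.ofReal (Real.exp (inner ℝ a (y - b))) *
      ENNReal.ofReal (Real.exp (inner ℝ a b)))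
    (hf.comp (measurable_add_const a)).ennreal_ofReal
    ((hg.ennreal_ofReal.mul (Measurable.ennreal_ofReal (by fun_prop))).mul measurable_const)
    (fun x y => by
      rw [← ENNReal.ofReal_mul (g0 y), ← ENNReal.ofReal_mul (mul_nonneg (g0 y) (Real.exp_pos _).le),
        ← ENNReal.ofReal_mul (f0 _)]
      refine ENNReal.ofReal_le_ofReal ?_
      rw [mul_assoc, ← Real.exp_add, ← mul_assoc]
      refine (mul_le_mul_of_nonneg_right (hd _ _) (Real.exp_pos _).le).trans (le_of_eq ?_)
      rw [← Real.exp_add, inner_add_left, inner_sub_right]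
      congr 1
      ring)
    (fun z => by
      rw [e1]
      refine (lap f f0 fi fj a ha z).trans (le_of_eq ?_)
      rw [← lintegral_add_right_eq_self _ a]
      simp only [add_sub_cancel_right])
  have hm : Measurable fun y =>
      ENNReal.ofReal (g y) * ENNReal.ofReal (Real.exp (inner ℝ a (y - b))) :=
    hg.ennreal_ofReal.mul (Measurable.ennreal_ofReal (by fun_prop))
  rw [e1, lintegral_mul_const _ hm] at key
  have k2 := le_trans (mul_le_mul_right (mul_le_mul_left (lap g g0 gi gj b hb a) _) _) key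
  rw [← ENNReal.ofReal_mul (integral_nonneg g0), ← ENNReal.ofReal_mul (integral_nonneg f0),
    ENNReal.ofReal_le_ofReal_iff (by positivity)] at k2
  rwa [mul_assoc]

/-- Polar coordinates. -/
theorem polar [Nontrivial E] {F : Type*} [NormedAddCommGroup F] [NormedSpace ℝ F] (u : E → F)
    (hu : Integrable u) :
    ∫ x, u x = ∫ v : Metric.sphere (0 : E) 1, (∫ t in Ioi (0 : ℝ), t ^ (finrank ℝ E - 1) •
      u (t • (v : E))) ∂(volume : Measure E).toSphere := by
  have hmp := (volume : Measure E).measurePreserving_homeomorphUnitSphereProd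
  set U : Metric.sphere (0 : E) 1 × Ioi (0 : ℝ) → F := fun p => u ((p.2 : ℝ) • (p.1 : E)) with hU
  have hc : ∀ x : ({(0 : E)}ᶜ : Set E), U (homeomorphUnitSphereProd E x) = u x := by
    intro x
    have hx : ‖(x : E)‖ ≠ 0 := norm_ne_zero_iff.2 x.2
    simp [hU, smul_smul, hx]
  have hUi : Integrable U ((volume : Measure E).toSphere.prod
      (Measure.volumeIoiPow (finrank ℝ E - 1))) := by
    rw [← hmp.integrable_comp_emb (Homeomorph.measurableEmbedding _)]
    have : U ∘ homeomorphUnitSphereProd E = u ∘ Subtype.val := funext hc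
    rw [this, ← integrableOn_iff_comap_subtypeVal (measurableSet_singleton _).compl]
    exact hu.integrableOn
  calc ∫ x, u x = ∫ x : ({(0 : E)}ᶜ : Set E), u x ∂((volume : Measure E).comap (↑)) := by
        rw [integral_subtype_comap (measurableSet_singleton _).compl u, restrict_compl_singleton]
    _ = ∫ p, U p ∂((volume : Measure E).toSphere.prod
        (Measure.volumeIoiPow (finrank ℝ E - 1))) := by
        rw [← hmp.integral_comp (Homeomorph.measurableEmbedding _) U]
        simp only [hc]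
    _ = _ := by
        rw [integral_prod _ hUi]
        refine integral_congr_ae (Eventually.of_forall fun v => ?_)
        simp only [Measure.volumeIoiPow, ENNReal.ofReal, hU]
        rw [integral_withDensity_eq_integral_smul
          (measurable_subtype_coe.pow_const _).real_toNNReal,
          integral_subtype_comap measurableSet_Ioi
            fun a => Real.toNNReal (a ^ (finrank ℝ E - 1)) • u (a • (v : E))]
        refine setIntegral_congr_fun measurableSet_Ioi fun x hx => ?_
        rw [NNReal.smul_def, Real.coe_toNNReal _ (pow_nonneg hx.out.le _)]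

/-- the moments of the Gaussian on the half line -/
def mom (k : ℕ) : ℝ := ∫ t in Ioi (0 : ℝ), t ^ k * Real.exp (-(t ^ 2 / 2))

theorem mom_nonneg (k : ℕ) : 0 ≤ mom k :=
  setIntegral_nonneg measurableSet_Ioi fun _ ht =>
    mul_nonneg (pow_nonneg (le_of_lt ht) _) (Real.exp_pos _).le

theorem mom_scale (k : ℕ) {R : ℝ} (hR : 0 < R) :
    ∫ t in Ioi (0 : ℝ), t ^ k * Real.exp (-((t / R) ^ 2 / 2)) = R ^ (k + 1) * mom k := by
  have h := integral_comp_mul_left_Ioi (fun t : ℝ => t ^ k * Real.exp (-(t ^ 2 / 2))) 0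
    (inv_pos.2 hR)
  rw [mul_zero, inv_inv, smul_eq_mul] at h
  rw [mom, pow_succ, mul_assoc, ← h, ← integral_const_mul]
  refine setIntegral_congr_fun measurableSet_Ioi fun t _ => ?_
  rw [← mul_assoc, ← mul_pow, mul_inv_cancel_left₀ hR.ne', div_eq_inv_mul t R]

open Classical in
/-- the direction of a vector -/
def dir (v0 : Metric.sphere (0 : E) 1) (x : E) : Metric.sphere (0 : E) 1 :=
  ⟨if x = 0 then (v0 : E) else ‖x‖⁻¹ • x, by
    split_ifs with h
    · exact v0.2
    · simp [norm_smul, h]⟩

omit [FiniteDimensional ℝ E] [MeasurableSpace E] [BorelSpace E] in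
theorem smul_dir (v0 : Metric.sphere (0 : E) 1) (x : E) : ‖x‖ • (dir v0 x : E) = x := by
  by_cases h : x = 0
  · simp [h]
  · simp [dir, h, smul_smul]

omit [FiniteDimensional ℝ E] [MeasurableSpace E] [BorelSpace E] in
theorem dir_smul (v0 v : Metric.sphere (0 : E) 1) {t : ℝ} (ht : 0 < t) :
    ‖t • (v : E)‖ = t ∧ dir v0 (t • (v : E)) = v := by
  have hv : ‖(v : E)‖ = 1 := norm_eq_of_mem_sphere v
  have h1 : ‖t • (v : E)‖ = t := by rw [norm_smul, hv, mul_one, Real.norm_of_nonneg ht.le]
  refine ⟨h1, Subtype.ext ?_⟩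
  have h2 : t • (v : E) ≠ 0 := fun h => ht.ne' (by rw [← h1, h, norm_zero])
  simp only [dir, if_neg h2]
  rw [h1, smul_smul, inv_mul_cancel₀ ht.ne', one_smul]

theorem dir_meas (v0 : Metric.sphere (0 : E) 1) : Measurable (dir v0) := by
  refine Measurable.subtype_mk ?_
  exact Measurable.ite (measurableSet_singleton (0 : E)) measurable_const
    (measurable_norm.inv.smul measurable_id)

/-- the function attached to a radial function -/
def gf (v0 : Metric.sphere (0 : E) 1) (R : Metric.sphere (0 : E) 1 → ℝ) (x : E) : ℝ :=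
  Real.exp (-((‖x‖ / R (dir v0 x)) ^ 2 / 2))

theorem gf_meas (v0 : Metric.sphere (0 : E) 1) {R : Metric.sphere (0 : E) 1 → ℝ}
    (hR : Continuous R) : Measurable (gf v0 R) :=
  Real.measurable_exp.comp
    ((((measurable_norm.div (hR.measurable.comp (dir_meas v0))).pow_const 2).div_const 2).neg)

theorem gauss_int [Nontrivial E] (k : ℕ) {c : ℝ} (hc : 0 < c) :
    Integrable fun x : E => ‖x‖ ^ k * Real.exp (-c * ‖x‖ ^ 2) := by
  rw [integrable_fun_norm_addHaar volume (f := fun t : ℝ => t ^ k * Real.exp (-c * t ^ 2))]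
  have := integrableOn_rpow_mul_exp_neg_mul_sq hc (s := ((finrank ℝ E - 1 + k : ℕ) : ℝ))
    (lt_of_lt_of_le (by norm_num) (Nat.cast_nonneg _))
  refine this.congr_fun (fun t _ => ?_) measurableSet_Ioi
  simp only
  rw [Real.rpow_natCast, pow_add, smul_eq_mul, mul_assoc]

theorem gf_int [Nontrivial E] (v0 : Metric.sphere (0 : E) 1) {R : Metric.sphere (0 : E) 1 → ℝ}
    (hR : Continuous R) (h0 : ∀ v, 0 < R v) :
    Integrable (gf v0 R) ∧ Integrable fun x => gf v0 R x • x := by
  obtain ⟨w, -, hw⟩ := isCompact_univ.exists_isMaxOn ⟨v0, mem_univ _⟩ hR.continuousOn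
  have hc : 0 < 1 / (2 * R w ^ 2) := by have := h0 w; positivity
  have hb : ∀ x : E, gf v0 R x ≤ Real.exp (-(1 / (2 * R w ^ 2)) * ‖x‖ ^ 2) := by
    intro x
    refine Real.exp_le_exp.2 ?_
    have h1 : ‖x‖ / R w ≤ ‖x‖ / R (dir v0 x) :=
      div_le_div_of_nonneg_left (norm_nonneg _) (h0 _) (hw (mem_univ _))
    have h2 := pow_le_pow_left₀ (div_nonneg (norm_nonneg _) (h0 w).le) h1 2
    have h3 : -(1 / (2 * R w ^ 2)) * ‖x‖ ^ 2 = -((‖x‖ / R w) ^ 2 / 2) := by
      have := (h0 w).ne'
      field_simp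
    rw [h3]
    linarith
  have hp : ∀ x : E, 0 ≤ gf v0 R x := fun x => (Real.exp_pos _).le
  constructor
  · refine (gauss_int (E := E) 0 hc).mono' (gf_meas v0 hR).aestronglyMeasurable
      (Eventually.of_forall fun x => ?_)
    rw [Real.norm_of_nonneg (hp x), pow_zero, one_mul]
    exact hb x
  · refine (gauss_int (E := E) 1 hc).mono'
      ((gf_meas v0 hR).smul measurable_id).aestronglyMeasurable (Eventually.of_forall fun x => ?_)
    rw [norm_smul, Real.norm_of_nonneg (hp x), pow_one, mul_comm]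
    exact mul_le_mul_of_nonneg_left (hb x) (norm_nonneg _)

theorem gf_mass [Nontrivial E] (v0 : Metric.sphere (0 : E) 1) {R : Metric.sphere (0 : E) 1 → ℝ}
    (hR : Continuous R) (h0 : ∀ v, 0 < R v) :
    ∫ x, gf v0 R x = mom (finrank ℝ E - 1) *
      ∫ v, R v ^ finrank ℝ E ∂(volume : Measure E).toSphere := by
  rw [polar _ (gf_int v0 hR h0).1, ← integral_const_mul]
  refine integral_congr_ae (Eventually.of_forall fun v => ?_)
  have h := mom_scale (finrank ℝ E - 1) (h0 v)
  rw [Nat.sub_add_cancel finrank_pos, mul_comm] at h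
  simp only
  rw [← h]
  refine setIntegral_congr_fun measurableSet_Ioi fun t ht => ?_
  simp only [gf]
  rw [(dir_smul v0 v ht).1, (dir_smul v0 v ht).2, smul_eq_mul]

theorem gf_bar [Nontrivial E] (v0 : Metric.sphere (0 : E) 1) {R : Metric.sphere (0 : E) 1 → ℝ}
    (hR : Continuous R) (h0 : ∀ v, 0 < R v) :
    ∫ x, gf v0 R x • x = mom (finrank ℝ E) •
      ∫ v, R v ^ (finrank ℝ E + 1) • (v : E) ∂(volume : Measure E).toSphere := by
  rw [polar _ (gf_int v0 hR h0).2, ← integral_smul]
  refine integral_congr_ae (Eventually.of_forall fun v => ?_)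
  have h := mom_scale (finrank ℝ E) (h0 v)
  simp only
  rw [smul_smul, mul_comm, ← h, ← integral_smul_const]
  refine setIntegral_congr_fun measurableSet_Ioi fun t ht => ?_
  simp only [gf]
  rw [(dir_smul v0 v ht).1, (dir_smul v0 v ht).2, smul_smul, smul_smul, mul_right_comm,
    ← pow_succ, Nat.sub_add_cancel finrank_pos]

theorem mom_sphere [Nontrivial E] :
    (mom (finrank ℝ E - 1) * (volume : Measure E).toSphere.real univ) ^ 2 =
      (2 * Real.pi) ^ finrank ℝ E := by
  obtain ⟨v0⟩ : Nonempty (Metric.sphere (0 : E) 1) :=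
    (NormedSpace.sphere_nonempty.2 zero_le_one).to_subtype
  have h := gf_mass v0 (R := fun _ => 1) continuous_const fun _ => one_pos
  have h1 : gf v0 (fun _ => 1) = fun x : E => Real.exp (-(1 / 2) * ‖x‖ ^ 2) := by
    funext x
    simp only [gf]
    congr 1
    ring
  rw [h1, GaussianFourier.integral_rexp_neg_mul_sq_norm (by norm_num)] at h
  simp only [one_pow, integral_const, smul_eq_mul, mul_one] at h
  rw [← h, ← Real.rpow_natCast, ← Real.rpow_mul (by positivity), ← Real.rpow_natCast]
  congr 1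
  · ring
  · push_cast
    ring

/-- The inequality of Santaló for radial functions on the sphere, with the barycentre. -/
theorem sant_sphere (E : Type*) [NormedAddCommGroup E] [InnerProductSpace ℝ E]
    [FiniteDimensional ℝ E] [Nontrivial E] [MeasurableSpace E] [BorelSpace E] :
    ∃ kap : ℝ, ∀ Rr : Metric.sphere (0 : E) 1 → ℝ, Continuous Rr → (∀ v, 0 < Rr v) →
      (∀ v w, Rr v * Rr w * (-(inner ℝ (v : E) (w : E))) ≤ 1) →
      (∫ v, Rr v ^ finrank ℝ E ∂(volume : Measure E).toSphere) ^ 2 *
        Real.exp (-(kap * ‖∫ v, Rr v ^ (finrank ℝ E + 1) • (v : E) ∂(volume : Measure E).toSphere‖ /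
          ∫ v, Rr v ^ finrank ℝ E ∂(volume : Measure E).toSphere) ^ 2) ≤
        ((volume : Measure E).toSphere.real univ) ^ 2 := by
  refine ⟨mom (finrank ℝ E) / mom (finrank ℝ E - 1), fun R hR h0 hd => ?_⟩
  obtain ⟨v0⟩ : Nonempty (Metric.sphere (0 : E) 1) :=
    (NormedSpace.sphere_nonempty.2 zero_le_one).to_subtype
  have hs := mom_sphere (E := E)
  have hc : mom (finrank ℝ E - 1) ≠ 0 := by
    intro h
    rw [h, zero_mul, zero_pow two_ne_zero] at hs
    exact absurd hs (by positivity)
  have h1 := gf_mass v0 hR h0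
  have h2 := gf_bar v0 hR h0
  obtain ⟨i1, i2⟩ := gf_int v0 hR h0
  generalize ∫ v, R v ^ finrank ℝ E ∂(volume : Measure E).toSphere = I at h1 ⊢
  generalize ∫ v, R v ^ (finrank ℝ E + 1) • (v : E) ∂(volume : Measure E).toSphere = V at h2 ⊢
  by_cases hI : I = 0
  · rw [hI, zero_pow two_ne_zero, zero_mul]
    positivity
  set b : E := (mom (finrank ℝ E) / mom (finrank ℝ E - 1) / I) • V with hb
  have hb1 : (∫ x, gf v0 R x) • b = ∫ x, gf v0 R x • x := by
    rw [h1, h2, hb, smul_smul]
    congr 1
    field_simp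
  have e1 : ∫ x, gf v0 R (-x) = ∫ x, gf v0 R x := integral_neg_eq_self _ _
  have e2 : ∫ x, gf v0 R (-x) • x = -∫ x, gf v0 R x • x := by
    rw [← integral_neg, ← integral_neg_eq_self]
    simp only [neg_neg, smul_neg]
  have key := lehec (gf v0 R) (fun x => gf v0 R (-x)) (gf_meas v0 hR)
    ((gf_meas v0 hR).comp measurable_neg) (fun _ => (Real.exp_pos _).le)
    (fun _ => (Real.exp_pos _).le) i1 i1.comp_neg i2
    (i2.comp_neg.neg.congr (Eventually.of_forall fun x => by simp)) b (-b) hb1
    (by rw [e1, e2, smul_neg, hb1]) (fun x y => by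
      simp only [gf]
      rw [← Real.exp_add, Real.exp_le_exp, ← inner_neg_right]
      generalize -y = y
      have h3 := hd (dir v0 x) (dir v0 y)
      have h4 : inner ℝ x y = ‖x‖ * (‖y‖ * inner ℝ (dir v0 x : E) (dir v0 y : E)) := by
        rw [← real_inner_smul_right, ← real_inner_smul_left, smul_dir, smul_dir]
      have h5 := h0 (dir v0 x)
      have h6 := h0 (dir v0 y)
      rw [h4]
      generalize inner ℝ (dir v0 x : E) (dir v0 y : E) = c at h3 ⊢
      generalize R (dir v0 x) = p at h3 h5 ⊢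
      generalize R (dir v0 y) = q at h3 h6 ⊢
      have h7 : ‖x‖ * (‖y‖ * c) = -(‖x‖ / p * (‖y‖ / q) * (p * q * -c)) := by field_simp
      have h8 : 0 ≤ ‖x‖ / p * (‖y‖ / q) := by positivity
      rw [h7]
      nlinarith [mul_le_mul_of_nonneg_left h3 h8, sq_nonneg (‖x‖ / p - ‖y‖ / q)])
  rw [e1, h1, ← hs, inner_neg_right, real_inner_self_eq_norm_sq] at key
  have h9 : ‖b‖ ^ 2 = (mom (finrank ℝ E) / mom (finrank ℝ E - 1) * ‖V‖ / I) ^ 2 := by
    rw [hb, norm_smul, mul_pow, Real.norm_eq_abs, sq_abs]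
    ring
  rw [h9] at key
  refine le_of_mul_le_mul_left ?_ (pow_pos (lt_of_le_of_ne (mom_nonneg _) hc.symm) 2)
  rw [← mul_pow (mom _) (Measure.real _ _)]
  refine le_trans (le_of_eq ?_) key
  ring

end Vale.Agent.P207Z.Sant

end
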